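import Vale.Agent.P166.NW.Quad.Segment

/-! Concavity of the quadratic pattern value between arbitrary paths. -/

noncomputable section

open Finset

namespace Vale.Agent.P166.NW

open Vale.Agent.P157.Parisi Vale.Agent.P157.Parisi.Up
open Vale.Agent.P168.Cascade (Exps)

lemma gap_slope_nonneg {θ : ℝ} {r : ℕ} {m : Fin r → ℝ} {q : Fin (r + 1) → ℝ} (hθ : 0 ≤ θ)
    (hm : ∀ i, 0 ≤ m i) (hq : Monotone q) (hq1 : q (Fin.last r) ≤ 1) :
    Monotone (quadSlope θ m q) := by
  intro p p' h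
  refine mul_le_mul_of_nonneg_left (add_le_add le_rfl (Finset.sum_le_sum fun i _ => ?_))
    (sq_nonneg θ)
  have h0 : 0 ≤ gap q i / (denom θ m q i.castSucc * denom θ m q i.succ) :=
    div_nonneg (gap_nonneg hq i) (mul_pos (denom_pos hθ hm hq hq1 _) (denom_pos hθ hm hq hq1 _)).le
  by_cases hi : i.val < p.val
  · rw [if_pos hi, if_pos (lt_of_lt_of_le hi (Fin.val_fin_le.2 h))]
  · rw [if_neg hi]
    split_ifs
    exacts [h0, le_rfl]

theorem bregman_stmt : BregmanStmt := by
  classical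
  intro θ hθ ξ ξ' E hE
  have hm : Exps ξ.m := ⟨ξ.isPath.pos, ξ.isPath.lt_one, ξ.isPath.strictMono⟩
  have hm' : Exps ξ'.m := ⟨ξ'.isPath.pos, ξ'.isPath.lt_one, ξ'.isPath.strictMono⟩
  set G := univ.image ξ.m ∪ univ.image ξ'.m
  set M : Fin G.card → ℝ := fun j => G.orderEmbOfFin rfl j
  have hMem : ∀ j, (∃ i, ξ.m i = M j) ∨ ∃ i, ξ'.m i = M j := fun j => by
    have := G.orderEmbOfFin_mem rfl j
    simp only [G, mem_union, mem_image, mem_univ, true_and] at this
    simpa [M, G] using this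
  have hM : Exps M := by
    refine ⟨fun j => ?_, fun j => ?_, fun a b h => (G.orderEmbOfFin rfl).strictMono h⟩
    · rcases hMem j with ⟨i, hi⟩ | ⟨i, hi⟩
      exacts [hi ▸ hm.pos i, hi ▸ hm'.pos i]
    · rcases hMem j with ⟨i, hi⟩ | ⟨i, hi⟩
      exacts [hi ▸ hm.lt_one i, hi ▸ hm'.lt_one i]
  have hmk : ∀ {r : ℕ} (m : Fin r → ℝ), StrictMono m → (∀ i, m i ∈ G) →
      ∃ e : Fin r → Fin G.card, StrictMono e ∧ ∀ i, M (e i) = m i := by
    intro r m hms hG
    have hex : ∀ i, ∃ j, M j = m i := fun i => by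
      have h : m i ∈ Set.range (G.orderEmbOfFin rfl) := by
        rw [range_orderEmbOfFin]; exact hG i
      exact h
    choose e he using hex
    exact ⟨e, fun a b h => (G.orderEmbOfFin rfl).lt_iff_lt.1 (by
      show M (e a) < M (e b); rw [he, he]; exact hms h), he⟩
  obtain ⟨e, he, hem⟩ := hmk ξ.m hm.mono fun i =>
    mem_union_left _ (mem_image_of_mem _ (mem_univ i))
  obtain ⟨e', he', hem'⟩ := hmk ξ'.m hm'.mono fun i =>
    mem_union_right _ (mem_image_of_mem _ (mem_univ i))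
  set Q := ξ.q ∘ lowIdx e
  set Q' := ξ'.q ∘ lowIdx e'
  have hQ' : Monotone Q' := ξ'.isPath.mono.comp lowIdx_mono
  have hQ : Monotone Q := ξ.isPath.mono.comp lowIdx_mono
  have hb : ∀ {r : ℕ} (q : Fin (r + 1) → ℝ) (f : Fin r → Fin G.card), Monotone q → 0 ≤ q 0 →
      q (Fin.last r) ≤ 1 → ∀ p, (q ∘ lowIdx f) p ∈ Set.Icc (0 : ℝ) 1 :=
    fun q f hq h0 h1 p =>
      ⟨h0.trans (hq (Fin.zero_le _)), (hq (Fin.le_last _)).trans h1⟩
  have hbQ := hb ξ.q e ξ.isPath.mono ξ.isPath.nonneg ξ.isPath.le_one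
  have hbQ' := hb ξ'.q e' ξ'.isPath.mono ξ'.isPath.nonneg ξ'.isPath.le_one
  have hseg := quadValue_le hθ hM hQ (hbQ 0).1 (hbQ (Fin.last _)).2 hQ' (hbQ' 0).1
    (hbQ' (Fin.last _)).2
  set s := quadSlope θ ξ.m ξ.q
  have hs : ∀ p, quadSlope θ M Q p = s (lowIdx e p) := quadSlope_comp he hem
  -- the pairing bound
  have h0 : ∑ p, weight ξ'.m p * ξ'.q p = tailT M Q' 0 := by
    rw [← sum_weight_comp hm' hM he' hem' ξ'.q, sum_weight_mul hM]
    simp [tailT, Q', Function.comp_def]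
  have hF : ∀ j : Fin G.card, ∑ p, weight ξ'.m p * max (ξ'.q p - Q' j.succ) 0 =
      tailT M Q' j.succ - Q' j.succ := by
    intro j
    rw [← sum_weight_comp hm' hM he' hem' fun p => max (ξ'.q p - Q' j.succ) 0, sum_weight_mul hM]
    have hgap : ∀ i, M i * gap (fun p => max (Q' p - Q' j.succ) 0) i =
        if j.val + 1 ≤ i.val then M i * gap Q' i else 0 := by
      intro i
      by_cases h : j.val + 1 ≤ i.val
      · rw [if_pos h]
        have h1 : Q' j.succ ≤ Q' i.castSucc := hQ' (Fin.le_def.2 (by simpa using h))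
        have h2 : Q' j.succ ≤ Q' i.succ := h1.trans (hQ' (Fin.castSucc_le_succ i))
        simp only [gap, max_eq_left (sub_nonneg.2 h1), max_eq_left (sub_nonneg.2 h2)]
        ring
      · rw [if_neg h]
        have h2 : Q' i.succ ≤ Q' j.succ :=
          hQ' (Fin.le_def.2 (by simp only [Fin.val_succ]; omega))
        have h1 : Q' i.castSucc ≤ Q' j.succ := (hQ' (Fin.castSucc_le_succ i)).trans h2
        simp [gap, max_eq_right (sub_nonpos.2 h1), max_eq_right (sub_nonpos.2 h2)]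
    show max (Q' (Fin.last _) - Q' j.succ) 0 -
      ∑ i, M i * gap (fun p => max (Q' p - Q' j.succ) 0) i = _
    simp only [hgap, max_eq_left (sub_nonneg.2 (hQ' (Fin.le_last j.succ))), tailT, Fin.val_succ]
    ring
  have hpair : E ≤ ∑ p, weight M p * (s (lowIdx e p) * Q' p) := by
    refine (hE (fun i => Q' (e i).succ) fun i => hbQ' _).trans (le_of_eq ?_)
    have hsum := sum_gap_comp he s
      (fun j g => g * (tailT M Q' j.succ - M j * Q' j.succ)) fun j h => by simp [h]
    simp only [hem] at hsum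
    refine Eq.trans ?_ (pair_by_parts hM (fun p => s (lowIdx e p)) Q').symm
    rw [show (∑ i, gap (fun p => s (lowIdx e p)) i * (tailT M Q' i.succ - M i * Q' i.succ)) = _
      from hsum, h0, lowIdx_zero]
    refine congrArg₂ (· + ·) rfl (Finset.sum_congr rfl fun i _ => ?_)
    rw [hF]
    show gap s i * _ = _
    ring
  rw [quadValue_comp he' hem', quadValue_comp he hem] at hseg
  simp only [hs] at hseg
  rw [← sum_weight_comp hm hM he hem fun p => ξ.q p * s p]
  have e3 : ∑ p, weight M p * (s (lowIdx e p) * (Q' p - Q p)) =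
      (∑ p, weight M p * (s (lowIdx e p) * Q' p)) -
        ∑ p, weight M p * (ξ.q (lowIdx e p) * s (lowIdx e p)) := by
    rw [← Finset.sum_sub_distrib]
    exact Finset.sum_congr rfl fun p _ => by simp [Q]; ring
  rw [e3] at hseg
  linarith

end Vale.Agent.P166.NW
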