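import Vale.Agent.P166.NW.Defs

/-! The denominators of the quadratic recursion. -/

noncomputable section

open Finset

namespace Vale.Agent.P166.NW

variable {r : ℕ} {θ : ℝ} {m : Fin r → ℝ} {q : Fin (r + 1) → ℝ}

lemma gap_nonneg (hq : Monotone q) (i : Fin r) : 0 ≤ gap q i :=
  sub_nonneg.2 (hq (Fin.castSucc_le_succ i))

lemma one_le_denom (hθ : 0 ≤ θ) (hm : ∀ i, 0 ≤ m i) (hq : Monotone q) (hq1 : q (Fin.last r) ≤ 1)
    (p : Fin (r + 1)) : 1 ≤ denom θ m q p := by
  have h : 0 ≤ ∑ i : Fin r, if p.val ≤ i.val then m i * gap q i else 0 :=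
    sum_nonneg fun i _ => by
      split_ifs
      exacts [mul_nonneg (hm i) (gap_nonneg hq i), le_rfl]
  unfold denom
  nlinarith

lemma denom_pos (hθ : 0 ≤ θ) (hm : ∀ i, 0 ≤ m i) (hq : Monotone q) (hq1 : q (Fin.last r) ≤ 1)
    (p : Fin (r + 1)) : 0 < denom θ m q p :=
  lt_of_lt_of_le one_pos (one_le_denom hθ hm hq hq1 p)

lemma denom_last : denom θ m q (Fin.last r) = 1 + θ * (1 - q (Fin.last r)) := by
  have h : ∀ i : Fin r, ¬ r ≤ i.val := fun i => Nat.not_le.2 i.isLt
  simp [denom, h]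

lemma denom_castSucc (i : Fin r) :
    denom θ m q i.castSucc = denom θ m q i.succ + θ * (m i * gap q i) := by
  have h : ∀ j : Fin r, (if i.val ≤ j.val then m j * gap q j else 0) =
      (if i.val + 1 ≤ j.val then m j * gap q j else 0) + if j = i then m i * gap q i else 0 := by
    intro j
    rcases lt_trichotomy i.val j.val with h | h | h
    · rw [if_pos h.le, if_pos (Nat.succ_le_of_lt h), if_neg (fun e => h.ne (congrArg Fin.val e).symm), add_zero]
    · obtain rfl : i = j := Fin.ext h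
      rw [if_pos le_rfl, if_neg (by omega), if_pos rfl, zero_add]
    · rw [if_neg (by omega), if_neg (by omega), if_neg (fun e => h.ne (congrArg Fin.val e)),
        add_zero]
  simp only [denom, Fin.val_castSucc, Fin.val_succ, h, sum_add_distrib, sum_ite_eq', mem_univ,
    if_true]
  ring

lemma gap_tail {m : Fin (r + 1) → ℝ} {q : Fin (r + 2) → ℝ} (i : Fin r) :
    gap (Fin.tail q) i = gap q i.succ := by
  rfl

lemma denom_tail {m : Fin (r + 1) → ℝ} {q : Fin (r + 2) → ℝ} (p : Fin (r + 1)) :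
    denom θ (Fin.tail m) (Fin.tail q) p = denom θ m q p.succ := by
  simp only [denom, Fin.sum_univ_succ (n := r), Fin.val_succ, Fin.val_zero, gap_tail (m := m)]
  simp [Fin.tail, Fin.succ_last, gap]

lemma denom_mono (hθ : 0 ≤ θ) (hm : ∀ i, 0 ≤ m i) (hq : Monotone q) (i : Fin r) :
    denom θ m q i.succ ≤ denom θ m q i.castSucc := by
  rw [denom_castSucc]
  exact le_add_of_nonneg_right (mul_nonneg hθ (mul_nonneg (hm i) (gap_nonneg hq i)))

lemma quadConst_tail {m : Fin (r + 1) → ℝ} {q : Fin (r + 2) → ℝ} (p : Fin (r + 1)) :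
    quadConst θ (Fin.tail m) (Fin.tail q) p = quadConst θ m q p.succ := by
  simp only [quadConst, Fin.sum_univ_succ (n := r), Fin.val_succ, Fin.val_zero, denom_tail,
    Fin.succ_last, Fin.succ_castSucc]
  simp [Fin.tail]

lemma quadConst_zero {m : Fin (r + 1) → ℝ} {q : Fin (r + 2) → ℝ} :
    quadConst θ m q 0 = quadConst θ m q (Fin.succ 0) -
      1 / 2 * ((Real.log (denom θ m q 0) - Real.log (denom θ m q 1)) / m 0) := by
  simp only [quadConst, Fin.sum_univ_succ (n := r), Fin.val_succ, Fin.val_zero, Nat.zero_le,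
    if_true]
  simp
  ring

end Vale.Agent.P166.NW
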