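import Mathlib

/-! Gaussian means of exponentials of concave quadratics. -/

noncomputable section

open MeasureTheory ProbabilityTheory
open scoped NNReal

namespace Vale.Agent.P166.NW

/-- The exponential of a concave quadratic tilts a Gaussian into a Gaussian. -/
lemma gauss_tilt {u δ : ℝ} (hu : 0 ≤ u) (hδ : 0 ≤ δ) (x : ℝ) (h : ℝ → ℝ) :
    ∫ g, Real.exp (-(u * (x + Real.sqrt δ * g) ^ 2) / 2) * h g ∂gaussianReal 0 1 =
      Real.exp (-(u * x ^ 2) / (2 * (1 + u * δ))) / Real.sqrt (1 + u * δ) *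
        ∫ g, h g ∂gaussianReal (-(u * Real.sqrt δ * x) / (1 + u * δ)) (1 / (1 + u * δ)).toNNReal := by
  have hd : 0 < 1 + u * δ := by positivity
  have hv : (1 / (1 + u * δ)).toNNReal ≠ 0 := by
    rw [ne_eq, Real.toNNReal_eq_zero, not_le]
    positivity
  rw [integral_gaussianReal_eq_integral_smul (one_ne_zero : (1 : ℝ≥0) ≠ 0),
    integral_gaussianReal_eq_integral_smul hv, ← integral_const_mul]
  refine integral_congr_ae (Filter.Eventually.of_forall fun g => ?_)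
  simp only [smul_eq_mul, gaussianPDFReal, Real.coe_toNNReal _ (one_div_pos.2 hd).le,
    NNReal.coe_one, mul_one, sub_zero]
  have hs : (Real.sqrt (2 * Real.pi * (1 / (1 + u * δ))))⁻¹ =
      Real.sqrt (1 + u * δ) * (Real.sqrt (2 * Real.pi))⁻¹ := by
    rw [Real.sqrt_mul (by positivity), one_div, Real.sqrt_inv, mul_inv, inv_inv, mul_comm]
  rw [hs]
  have he : -g ^ 2 / 2 + -(u * (x + Real.sqrt δ * g) ^ 2) / 2 =
      -(u * x ^ 2) / (2 * (1 + u * δ)) +
        -(g - -(u * Real.sqrt δ * x) / (1 + u * δ)) ^ 2 / (2 * (1 / (1 + u * δ))) := by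
    obtain ⟨t, ht, rfl⟩ : ∃ t : ℝ, t = Real.sqrt δ ∧ δ = t * t :=
      ⟨Real.sqrt δ, rfl, (Real.mul_self_sqrt hδ).symm⟩
    rw [← ht]
    field_simp
    ring
  calc (Real.sqrt (2 * Real.pi))⁻¹ * Real.exp (-g ^ 2 / 2) *
        (Real.exp (-(u * (x + Real.sqrt δ * g) ^ 2) / 2) * h g)
      = (Real.sqrt (2 * Real.pi))⁻¹ *
          (Real.exp (-g ^ 2 / 2 + -(u * (x + Real.sqrt δ * g) ^ 2) / 2)) * h g := by
        rw [Real.exp_add]; ring
    _ = _ := by
        rw [he, Real.exp_add]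
        have : Real.sqrt (1 + u * δ) ≠ 0 := (Real.sqrt_pos.2 hd).ne'
        field_simp

/-- The second moment of a Gaussian. -/
lemma integral_sq_gaussianReal (μ : ℝ) (v : ℝ≥0) :
    Integrable (fun g => g ^ 2) (gaussianReal μ v) ∧
      ∫ g, g ^ 2 ∂gaussianReal μ v = (v : ℝ) + μ ^ 2 := by
  have hm : MemLp (fun g : ℝ => g) 2 (gaussianReal μ v) := memLp_id_gaussianReal 2
  have h := variance_eq_sub hm
  rw [variance_fun_id_gaussianReal, integral_id_gaussianReal] at h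
  refine ⟨hm.integrable_sq, ?_⟩
  have e : ∫ g, g ^ 2 ∂gaussianReal μ v = ∫ g, ((fun g : ℝ => g) ^ 2) g ∂gaussianReal μ v := rfl
  rw [e]
  linarith

/-- The mean of an affine square. -/
lemma integral_affine_sq (μ : ℝ) (v : ℝ≥0) (a b : ℝ) :
    ∫ g, (a + b * g) ^ 2 ∂gaussianReal μ v = (a + b * μ) ^ 2 + b ^ 2 * v := by
  obtain ⟨hi, he⟩ := integral_sq_gaussianReal μ v
  have h1 : Integrable (fun g : ℝ => g) (gaussianReal μ v) :=
    memLp_one_iff_integrable.1 (memLp_id_gaussianReal' 1 ENNReal.one_ne_top)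
  have e : ∀ g : ℝ, (a + b * g) ^ 2 = (a ^ 2 + 2 * a * b * g) + b ^ 2 * g ^ 2 := fun g => by ring
  simp_rw [e]
  rw [integral_add (f := fun g : ℝ => a ^ 2 + 2 * a * b * g) (g := fun g => b ^ 2 * g ^ 2)
      ((integrable_const _).add (h1.const_mul _)) (hi.const_mul _),
    integral_add (integrable_const _) (h1.const_mul _), integral_const_mul, integral_const_mul,
    integral_id_gaussianReal, he]
  simp only [integral_const, probReal_univ, one_smul]
  ring

/-- `E exp (-u (x + √δ g)² / 2)`. -/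
lemma gauss_exp {u δ : ℝ} (hu : 0 ≤ u) (hδ : 0 ≤ δ) (x : ℝ) :
    ∫ g, Real.exp (-(u * (x + Real.sqrt δ * g) ^ 2) / 2) ∂gaussianReal 0 1 =
      Real.exp (-(u * x ^ 2) / (2 * (1 + u * δ))) / Real.sqrt (1 + u * δ) := by
  simpa using gauss_tilt hu hδ x fun _ => 1

/-- The tilted second moment of the shifted variable. -/
lemma gauss_tilt_sq {u δ : ℝ} (hu : 0 ≤ u) (hδ : 0 ≤ δ) (x : ℝ) :
    (∫ g, Real.exp (-(u * (x + Real.sqrt δ * g) ^ 2) / 2) * (x + Real.sqrt δ * g) ^ 2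
        ∂gaussianReal 0 1) / (∫ g, Real.exp (-(u * (x + Real.sqrt δ * g) ^ 2) / 2)
        ∂gaussianReal 0 1) = x ^ 2 / (1 + u * δ) ^ 2 + δ / (1 + u * δ) := by
  have hd : 0 < 1 + u * δ := by positivity
  rw [gauss_tilt hu hδ, gauss_exp hu hδ, integral_affine_sq,
    mul_div_cancel_left₀ _ (ne_of_gt (div_pos (Real.exp_pos _) (Real.sqrt_pos.2 hd))),
    Real.coe_toNNReal _ (one_div_pos.2 hd).le, Real.sq_sqrt hδ]
  obtain ⟨t, ht, rfl⟩ : ∃ t : ℝ, t = Real.sqrt δ ∧ δ = t * t :=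
    ⟨Real.sqrt δ, rfl, (Real.mul_self_sqrt hδ).symm⟩
  rw [← ht]
  field_simp
  ring

end Vale.Agent.P166.NW
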