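import Vale.Agent.P166.NW.Base
import Vale.Agent.P166.NW.Quad.Gauss
import Vale.Agent.P166.NW.Quad.Denom

/-! The recursion of the quadratic potential in closed form. -/

noncomputable section

open MeasureTheory ProbabilityTheory Finset

namespace Vale.Agent.P166.NW

open Vale.Agent.P157.Parisi

variable {θ : ℝ}

lemma top_quad (hθ : 0 ≤ θ) {δ : ℝ} (hδ : 0 ≤ δ) (x : ℝ) :
    topMean (quadPot θ) δ x = -(1 / 2) * Real.log (1 + θ * δ) - θ / (1 + θ * δ) * x ^ 2 / 2 := by
  have hd : 0 < 1 + θ * δ := by positivity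
  simp only [topMean, quadPot]
  rw [gauss_exp hθ hδ, Real.log_div (Real.exp_pos _).ne' (Real.sqrt_pos.2 hd).ne', Real.log_exp,
    Real.log_sqrt hd.le]
  field_simp
  ring

lemma layer_quad {μ δ c u : ℝ} (hμ : 0 < μ) (hu : 0 ≤ u) (hδ : 0 ≤ δ) (x : ℝ) :
    layer μ δ (fun y => c - u * y ^ 2 / 2) x =
      c - Real.log (1 + μ * u * δ) / (2 * μ) - u / (1 + μ * u * δ) * x ^ 2 / 2 := by
  have hd : 0 < 1 + μ * u * δ := by positivity
  have e : ∀ g, Real.exp (μ * (c - u * (x + Real.sqrt δ * g) ^ 2 / 2)) =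
      Real.exp (μ * c) * Real.exp (-(μ * u * (x + Real.sqrt δ * g) ^ 2) / 2) := fun g => by
    rw [← Real.exp_add]; ring_nf
  simp only [layer, e, integral_const_mul]
  rw [gauss_exp (mul_nonneg hμ.le hu) hδ, Real.log_mul (Real.exp_pos _).ne'
    (div_pos (Real.exp_pos _) (Real.sqrt_pos.2 hd)).ne', Real.log_exp,
    Real.log_div (Real.exp_pos _).ne' (Real.sqrt_pos.2 hd).ne', Real.log_exp, Real.log_sqrt hd.le]
  field_simp
  ring

lemma tilt_quad {μ δ c u K S : ℝ} (hμ : 0 < μ) (hu : 0 ≤ u) (hδ : 0 ≤ δ) (x : ℝ) :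
    tilt μ δ (fun y => c - u * y ^ 2 / 2) (fun y => K * y ^ 2 + S) x =
      K * (x ^ 2 / (1 + μ * u * δ) ^ 2 + δ / (1 + μ * u * δ)) + S := by
  have hd : 0 < 1 + μ * u * δ := by positivity
  have hu' : 0 ≤ μ * u := mul_nonneg hμ.le hu
  set w : ℝ → ℝ := fun g => Real.exp (-(μ * u * (x + Real.sqrt δ * g) ^ 2) / 2) with hw
  have hwm : Measurable w := by fun_prop
  have hwb : ∀ g, ‖w g‖ ≤ 1 := fun g => by
    rw [Real.norm_eq_abs, hw, abs_of_pos (Real.exp_pos _), Real.exp_le_one_iff]
    have : 0 ≤ μ * u * (x + Real.sqrt δ * g) ^ 2 := by positivity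
    linarith
  have hw1 : Integrable w (gaussianReal 0 1) :=
    Integrable.of_bound hwm.aestronglyMeasurable 1 (ae_of_all _ hwb)
  have hsq : Integrable (fun g : ℝ => (x + Real.sqrt δ * g) ^ 2) (gaussianReal 0 1) :=
    (((memLp_const x).add ((memLp_id_gaussianReal 2).const_mul (Real.sqrt δ))) :
      MemLp (fun g : ℝ => x + Real.sqrt δ * g) 2 (gaussianReal 0 1)).integrable_sq
  have hw2 : Integrable (fun g => w g * (x + Real.sqrt δ * g) ^ 2) (gaussianReal 0 1) :=
    hsq.bdd_mul hwm.aestronglyMeasurable (ae_of_all _ hwb)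
  have e : ∀ g, Real.exp (μ * (c - u * (x + Real.sqrt δ * g) ^ 2 / 2)) =
      Real.exp (μ * c) * w g := fun g => by
    rw [hw, ← Real.exp_add]; ring_nf
  have hne : ∫ g, w g ∂gaussianReal 0 1 ≠ 0 := by
    rw [hw, gauss_exp hu' hδ]
    exact (div_pos (Real.exp_pos _) (Real.sqrt_pos.2 hd)).ne'
  have e2 : ∫ g, w g * (K * (x + Real.sqrt δ * g) ^ 2 + S) ∂gaussianReal 0 1 =
      K * ∫ g, w g * (x + Real.sqrt δ * g) ^ 2 ∂gaussianReal 0 1 +
        S * ∫ g, w g ∂gaussianReal 0 1 := by
    rw [← integral_const_mul, ← integral_const_mul,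
      ← integral_add (hw2.const_mul K) (hw1.const_mul S)]
    exact integral_congr_ae (ae_of_all _ fun g => by ring)
  simp only [tilt, e, mul_assoc (Real.exp (μ * c)), integral_const_mul]
  rw [mul_div_mul_left _ _ (Real.exp_pos _).ne', e2, add_div, mul_div_assoc,
    mul_div_cancel_right₀ _ hne, hw, gauss_tilt_sq hu' hδ]

lemma level_quad (hθ : 0 < θ) : ∀ {r : ℕ} {m : Fin r → ℝ} {q : Fin (r + 1) → ℝ},
    (∀ i, 0 < m i) → Monotone q → q (Fin.last r) ≤ 1 → ∀ p,
    level m q (topMean (quadPot θ) (1 - q (Fin.last r))) p =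
      fun x => quadConst θ m q p - θ / denom θ m q p * x ^ 2 / 2
  | 0, m, q, _, _, hq1, p => by
    have hp : p = Fin.last 0 := Subsingleton.elim (α := Fin 1) p _
    subst hp
    funext x
    rw [denom_last, quadConst, denom_last]
    simp only [univ_eq_empty, sum_empty, add_zero]
    exact top_quad hθ.le (sub_nonneg.2 hq1) x
  | r + 1, m, q, hm, hq, hq1, p => by
    have hqt : Monotone (Fin.tail q) := fun i j h => hq (Fin.succ_le_succ_iff.2 h)
    have hl : Fin.tail q (Fin.last r) = q (Fin.last (r + 1)) := by simp [Fin.tail, Fin.succ_last]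
    have ih := level_quad hθ (m := Fin.tail m) (q := Fin.tail q) (fun i => hm _) hqt
      (hl.trans_le hq1)
    rw [hl] at ih
    cases p using Fin.cases with
    | succ p =>
      show level (Fin.tail m) (Fin.tail q) _ p = _
      rw [ih p, denom_tail, quadConst_tail]
    | zero =>
      show layer (m 0) (q 1 - q 0) (level (Fin.tail m) (Fin.tail q) _ 0) = _
      rw [ih 0, denom_tail, quadConst_tail]
      have hd1 := denom_pos hθ.le (fun i => (hm i).le) hq hq1 (Fin.succ 0)
      have hd0 := denom_pos hθ.le (fun i => (hm i).le) hq hq1 0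
      have hrel : denom θ m q 0 = denom θ m q (Fin.succ 0) + θ * (m 0 * (q 1 - q 0)) := by
        simpa [gap] using denom_castSucc (θ := θ) (m := m) (q := q) 0
      funext x
      rw [layer_quad (hm 0) (div_nonneg hθ.le hd1.le) (sub_nonneg.2 (hq (Fin.zero_le _))),
        quadConst_zero]
      have e : 1 + m 0 * (θ / denom θ m q (Fin.succ 0)) * (q 1 - q 0) =
          denom θ m q 0 / denom θ m q (Fin.succ 0) := by
        rw [hrel]; field_simp
      rw [e, Real.log_div hd0.ne' hd1.ne', ← Fin.succ_zero_eq_one]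
      field_simp

lemma down_quad (hθ : 0 < θ) : ∀ {r : ℕ} {m : Fin r → ℝ} {q : Fin (r + 1) → ℝ},
    (∀ i, 0 < m i) → Monotone q → q (Fin.last r) ≤ 1 → ∀ p,
    down m q (topMean (quadPot θ) (1 - q (Fin.last r))) p
        (fun x => (θ / denom θ m q p * x) ^ 2) =
      fun x => θ ^ 2 / denom θ m q 0 ^ 2 * x ^ 2 + θ ^ 2 * ∑ i : Fin r, if i.val < p.val then
        gap q i / (denom θ m q i.castSucc * denom θ m q i.succ) else 0
  | 0, m, q, _, _, _, p => by
    have hp : p = 0 := Subsingleton.elim (α := Fin 1) p 0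
    subst hp
    funext x
    show (θ / denom θ m q 0 * x) ^ 2 = _
    simp only [univ_eq_empty, sum_empty]
    ring
  | r + 1, m, q, hm, hq, hq1, p => by
    have hqt : Monotone (Fin.tail q) := fun i j h => hq (Fin.succ_le_succ_iff.2 h)
    have hl : Fin.tail q (Fin.last r) = q (Fin.last (r + 1)) := by simp [Fin.tail, Fin.succ_last]
    have ih := down_quad hθ (m := Fin.tail m) (q := Fin.tail q) (fun i => hm _) hqt
      (hl.trans_le hq1)
    have hlev := level_quad hθ (m := Fin.tail m) (q := Fin.tail q) (fun i => hm _) hqt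
      (hl.trans_le hq1) 0
    rw [hl] at ih hlev
    cases p using Fin.cases with
    | zero =>
      funext x
      show (θ / denom θ m q 0 * x) ^ 2 = _
      simp only [Fin.val_zero, Nat.not_lt_zero, if_false, sum_const_zero]
      ring
    | succ p =>
      show tilt (m 0) (q 1 - q 0) (level (Fin.tail m) (Fin.tail q) _ 0)
        (down (Fin.tail m) (Fin.tail q) _ p _) = _
      have ih' := ih p
      rw [denom_tail] at ih'
      rw [ih', hlev, denom_tail, quadConst_tail]
      have hd1 := denom_pos hθ.le (fun i => (hm i).le) hq hq1 (Fin.succ 0)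
      have hd0 := denom_pos hθ.le (fun i => (hm i).le) hq hq1 0
      have hrel : denom θ m q 0 = denom θ m q (Fin.succ 0) + θ * (m 0 * (q 1 - q 0)) := by
        simpa [gap] using denom_castSucc (θ := θ) (m := m) (q := q) 0
      funext x
      rw [tilt_quad (hm 0) (div_nonneg hθ.le hd1.le) (sub_nonneg.2 (hq (Fin.zero_le _)))]
      have e : 1 + m 0 * (θ / denom θ m q (Fin.succ 0)) * (q 1 - q 0) =
          denom θ m q 0 / denom θ m q (Fin.succ 0) := by
        rw [hrel]; field_simp
      rw [e, Fin.sum_univ_succ (n := r)]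
      simp only [Fin.val_zero, Fin.val_succ, Nat.succ_pos, if_true, Nat.add_lt_add_iff_right,
        gap_tail (m := m), denom_tail, Fin.castSucc_zero, Fin.succ_castSucc]
      rw [show gap q 0 = q 1 - q 0 from by simp [gap]]
      field_simp
      ring

theorem quad_stmt : QuadStmt := by
  intro θ hθ ξ
  have hm := ξ.isPath.pos
  have hl := level_quad hθ hm ξ.isPath.mono ξ.isPath.le_one
  refine ⟨fun p x => by rw [hl p], ?_, fun p => ?_⟩
  · rw [patValue, hl 0, quadValue]
    obtain ⟨hi, he⟩ := integral_sq_gaussianReal 0 1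
    have e : ∀ g : ℝ, quadConst θ ξ.m ξ.q 0 -
        θ / denom θ ξ.m ξ.q 0 * (Real.sqrt (ξ.q 0) * g) ^ 2 / 2 =
        quadConst θ ξ.m ξ.q 0 - θ * ξ.q 0 / (2 * denom θ ξ.m ξ.q 0) * g ^ 2 := fun g => by
      rw [mul_pow, Real.sq_sqrt ξ.isPath.nonneg]; ring
    simp only [e]
    rw [integral_sub (integrable_const _) (hi.const_mul _), integral_const_mul, he]
    simp
  · have hd : deriv (level ξ.m ξ.q (topMean (quadPot θ) (1 - ξ.q (Fin.last ξ.r))) p) =
        fun x => -(θ / denom θ ξ.m ξ.q p * x) := by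
      funext x
      rw [hl p]
      have := ((((hasDerivAt_pow 2 x).const_mul (θ / denom θ ξ.m ξ.q p)).div_const 2).const_sub
        (quadConst θ ξ.m ξ.q p)).deriv
      rw [this]
      simp; ring
    obtain ⟨hi, he⟩ := integral_sq_gaussianReal 0 1
    simp only [Vale.Agent.P157.Parisi.slope, hd, neg_sq]
    rw [down_quad hθ hm ξ.isPath.mono ξ.isPath.le_one p]
    simp only [mul_pow, Real.sq_sqrt ξ.isPath.nonneg, quadSlope]
    simp only [← mul_assoc]
    rw [integral_add (hi.const_mul _) (integrable_const _), integral_const_mul, he]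
    simp
    ring

end Vale.Agent.P166.NW
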