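import Vale.Agent.P166.NW.Base
import Vale.Agent.P166.NW.Quad.Denom

/-! Paths on a finer grid of exponents. -/

noncomputable section

open Finset

namespace Vale.Agent.P166.NW

open Vale.Agent.P157.Parisi Vale.Agent.P157.Parisi.Up

variable {r R : ℕ}

lemma telescope : ∀ {r : ℕ} (F : Fin (r + 1) → ℝ), ∑ i : Fin r, gap F i = F (Fin.last r) - F 0
  | 0, F => by simp
  | r + 1, F => by
    rw [Fin.sum_univ_castSucc]
    have := telescope fun p : Fin (r + 1) => F p.castSucc
    simp only [gap, Fin.castSucc_zero] at this ⊢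
    simp only [Fin.succ_castSucc, Fin.succ_last]
    rw [this]
    ring

/-- Summation by parts against the weights. -/
lemma sum_weight_mul {m : Fin r → ℝ} (hm : Vale.Agent.P168.Cascade.Exps m)
    (F : Fin (r + 1) → ℝ) :
    ∑ p, weight m p * F p = F (Fin.last r) - ∑ i : Fin r, m i * gap F i := by
  have h1 : ∑ p, (Fin.snoc m 1 : Fin (r + 1) → ℝ) p * F p =
      F (Fin.last r) + ∑ i : Fin r, m i * F i.castSucc := by
    rw [Fin.sum_univ_castSucc]
    simp [add_comm]
  have h2 : ∑ p, (Fin.cons 0 m : Fin (r + 1) → ℝ) p * F p = ∑ i : Fin r, m i * F i.succ := by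
    rw [Fin.sum_univ_succ]
    simp
  simp only [weight, sub_mul, Finset.sum_sub_distrib, h1, h2, gap, mul_sub]
  ring

/-- The number of points of the image of `e` below `p`. -/
def lowIdx (e : Fin r → Fin R) (p : Fin (R + 1)) : Fin (r + 1) :=
  ⟨(univ.filter fun i : Fin r => (e i).val < p.val).card,
    Nat.lt_succ_iff.2 ((card_le_univ _).trans_eq (Fintype.card_fin r))⟩

variable {e : Fin r → Fin R}

lemma lt_lowIdx (he : StrictMono e) (i : Fin r) (p : Fin (R + 1)) :
    i.val < (lowIdx e p).val ↔ (e i).val < p.val := by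
  show i.val < (univ.filter fun j : Fin r => (e j).val < p.val).card ↔ _
  constructor
  · intro h
    by_contra hc
    have : (univ.filter fun j : Fin r => (e j).val < p.val) ⊆ Finset.Iio i := fun j hj => by
      rw [Finset.mem_Iio]
      by_contra hji
      exact hc (lt_of_le_of_lt (Fin.val_fin_le.2 (he.monotone (not_lt.1 hji))) (mem_filter.1 hj).2)
    have := card_le_card this
    rw [Fin.card_Iio] at this
    omega
  · intro h
    have : Finset.Iic i ⊆ univ.filter fun j : Fin r => (e j).val < p.val := fun j hj =>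
      mem_filter.2 ⟨mem_univ _, lt_of_le_of_lt (Fin.val_fin_le.2 (he.monotone (mem_Iic.1 hj))) h⟩
    have := card_le_card this
    rw [Fin.card_Iic] at this
    omega

lemma lowIdx_mono : Monotone (lowIdx e) := fun p p' h =>
  Fin.le_def.2 (show (univ.filter fun i : Fin r => (e i).val < p.val).card ≤
    (univ.filter fun i : Fin r => (e i).val < p'.val).card from card_le_card fun i hi =>
    mem_filter.2 ⟨mem_univ _, lt_of_lt_of_le (mem_filter.1 hi).2 (Fin.le_def.1 h)⟩)

lemma lowIdx_zero : lowIdx e 0 = 0 := by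
  ext
  simp [lowIdx]

lemma lowIdx_last : lowIdx e (Fin.last R) = Fin.last r := by
  ext
  simp [lowIdx]

lemma lowIdx_castSucc (he : StrictMono e) (i : Fin r) : lowIdx e (e i).castSucc = i.castSucc := by
  refine Fin.ext (le_antisymm ?_ ?_)
  · by_contra h
    exact lt_irrefl _ ((lt_lowIdx he i (e i).castSucc).1 (not_le.1 h))
  · by_contra h
    have hlt := not_le.1 h
    simp only [Fin.val_castSucc] at hlt
    have h1 := (lt_lowIdx he ⟨(lowIdx e (e i).castSucc).val, hlt.trans i.isLt⟩ (e i).castSucc).2
    exact lt_irrefl _ (h1 (Fin.lt_def.1 (he (Fin.lt_def.2 hlt))))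

lemma lowIdx_succ (he : StrictMono e) (i : Fin r) : lowIdx e (e i).succ = i.succ := by
  refine Fin.ext (le_antisymm ?_ ?_)
  · by_contra h
    have hlt := not_le.1 h
    simp only [Fin.val_succ] at hlt
    have hb := (lowIdx e (e i).succ).isLt
    have h1 := (lt_lowIdx he ⟨i.val + 1, by omega⟩ (e i).succ).1 hlt
    have h2 := he (show i < ⟨i.val + 1, by omega⟩ from Fin.lt_def.2 (Nat.lt_succ_self _))
    simp only [Fin.val_succ] at h1
    rw [Fin.lt_def] at h2
    omega
  · have := (lt_lowIdx he i (e i).succ).2 (by simp)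
    simp only [Fin.val_succ]
    omega

lemma gap_comp_image (he : StrictMono e) (F : Fin (r + 1) → ℝ) (i : Fin r) :
    gap (F ∘ lowIdx e) (e i) = gap F i := by
  simp [gap, lowIdx_castSucc he, lowIdx_succ he]

lemma gap_comp_other (he : StrictMono e) (F : Fin (r + 1) → ℝ) {j : Fin R}
    (hj : ∀ i, e i ≠ j) : gap (F ∘ lowIdx e) j = 0 := by
  have : lowIdx e j.succ = lowIdx e j.castSucc := by
    ext
    simp only [lowIdx, Fin.val_succ, Fin.val_castSucc]
    congr 1
    ext i
    simp only [mem_filter, mem_univ, true_and]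
    have : (e i).val ≠ j.val := fun h => hj i (Fin.ext h)
    constructor <;> intro h <;> omega
  simp [gap, this]

/-- A sum against the gaps of a refined path. -/
lemma sum_gap_comp (he : StrictMono e) (F : Fin (r + 1) → ℝ) (G : Fin R → ℝ → ℝ)
    (h0 : ∀ j, gap (F ∘ lowIdx e) j = 0 → G j (gap (F ∘ lowIdx e) j) = 0) :
    ∑ j, G j (gap (F ∘ lowIdx e) j) = ∑ i, G (e i) (gap F i) := by
  rw [← Finset.sum_subset (subset_univ (univ.image e)) fun j _ hj => h0 j
      (gap_comp_other he F fun i h => hj (mem_image.2 ⟨i, mem_univ _, h⟩)),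
    Finset.sum_image fun a _ b _ h => he.injective h]
  exact Finset.sum_congr rfl fun i _ => by rw [gap_comp_image he]

variable {m : Fin r → ℝ} {M : Fin R → ℝ} {q : Fin (r + 1) → ℝ} {θ : ℝ}

lemma sum_weight_comp (hm : Vale.Agent.P168.Cascade.Exps m) (hM : Vale.Agent.P168.Cascade.Exps M)
    (he : StrictMono e) (hem : ∀ i, M (e i) = m i) (F : Fin (r + 1) → ℝ) :
    ∑ p, weight M p * F (lowIdx e p) = ∑ p, weight m p * F p := by
  have h := sum_gap_comp he F (fun j g => M j * g) fun j h => by simp [h]
  simp only [hem] at h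
  rw [sum_weight_mul hm, ← h]
  refine (sum_weight_mul hM (F ∘ lowIdx e)).trans ?_
  simp [lowIdx_last]

lemma denom_comp (he : StrictMono e) (hem : ∀ i, M (e i) = m i) (p : Fin (R + 1)) :
    denom θ M (q ∘ lowIdx e) p = denom θ m q (lowIdx e p) := by
  have h := sum_gap_comp he q (fun j g => if p.val ≤ j.val then M j * g else 0)
    fun j h => by simp [h]
  simp only [hem] at h
  simp only [denom, h, Function.comp_apply, lowIdx_last]
  congr 3
  refine Finset.sum_congr rfl fun i _ => if_congr ?_ rfl rfl
  rw [← not_lt, ← lt_lowIdx he i p, not_lt]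

lemma quadConst_comp (he : StrictMono e) (hem : ∀ i, M (e i) = m i) :
    quadConst θ M (q ∘ lowIdx e) 0 = quadConst θ m q 0 := by
  simp only [quadConst, Fin.val_zero, Nat.zero_le, if_true, denom_comp he hem, lowIdx_last]
  congr 2
  rw [← Finset.sum_subset (subset_univ (univ.image e)), Finset.sum_image fun a _ b _ h =>
    he.injective h]
  · exact Finset.sum_congr rfl fun i _ => by rw [lowIdx_castSucc he, lowIdx_succ he, hem]
  · intro j _ hj
    have : lowIdx e j.succ = lowIdx e j.castSucc := by
      ext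
      simp only [lowIdx, Fin.val_succ, Fin.val_castSucc]
      congr 1
      ext i
      simp only [mem_filter, mem_univ, true_and]
      have hne : (e i).val ≠ j.val := fun h => hj (mem_image.2 ⟨i, mem_univ _, Fin.ext h⟩)
      constructor <;> intro h <;> omega
    simp [this]

lemma quadValue_comp (he : StrictMono e) (hem : ∀ i, M (e i) = m i) :
    quadValue θ M (q ∘ lowIdx e) = quadValue θ m q := by
  simp only [quadValue, quadConst_comp he hem, denom_comp he hem, Function.comp_apply, lowIdx_zero]

lemma quadSlope_comp (he : StrictMono e) (hem : ∀ i, M (e i) = m i) (p : Fin (R + 1)) :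
    quadSlope θ M (q ∘ lowIdx e) p = quadSlope θ m q (lowIdx e p) := by
  have h := sum_gap_comp he q
    (fun j g => if j.val < p.val then g / (denom θ m q (lowIdx e j.castSucc) *
      denom θ m q (lowIdx e j.succ)) else 0) fun j h => by simp [h]
  simp only [quadSlope, denom_comp he hem, Function.comp_apply, lowIdx_zero, h]
  congr 2
  refine Finset.sum_congr rfl fun i _ => ?_
  rw [lowIdx_castSucc he, lowIdx_succ he]
  exact if_congr (lt_lowIdx he i p).symm rfl rfl

end Vale.Agent.P166.NW
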