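import Vale.Agent.P166.NW.Quad.Refine

/-! The quadratic pattern value is concave on paths with common exponents. -/

noncomputable section

open Finset

namespace Vale.Agent.P166.NW

open Vale.Agent.P157.Parisi Vale.Agent.P157.Parisi.Up
open Vale.Agent.P168.Cascade (Exps)

variable {r : ℕ} {θ : ℝ} {m : Fin r → ℝ}

/-- `v_r - ∑_{i ≥ p} m_i (v_{i+1} - v_i)`. -/
def tailT (m : Fin r → ℝ) (v : Fin (r + 1) → ℝ) (p : Fin (r + 1)) : ℝ :=
  v (Fin.last r) - ∑ i : Fin r, if p.val ≤ i.val then m i * gap v i else 0

lemma tailT_last (v : Fin (r + 1) → ℝ) : tailT m v (Fin.last r) = v (Fin.last r) := by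
  have h : ∀ i : Fin r, ¬ r ≤ i.val := fun i => Nat.not_le.2 i.isLt
  simp [tailT, h]

lemma tailT_castSucc (v : Fin (r + 1) → ℝ) (i : Fin r) :
    tailT m v i.castSucc = tailT m v i.succ - m i * gap v i := by
  have h : ∀ j : Fin r, (if i.val ≤ j.val then m j * gap v j else 0) =
      (if i.val + 1 ≤ j.val then m j * gap v j else 0) + if j = i then m i * gap v i else 0 := by
    intro j
    rcases lt_trichotomy i.val j.val with h | h | h
    · rw [if_pos h.le, if_pos (Nat.succ_le_of_lt h),
        if_neg (fun e => h.ne (congrArg Fin.val e).symm), add_zero]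
    · obtain rfl : i = j := Fin.ext h
      rw [if_pos le_rfl, if_neg (by omega), if_pos rfl, zero_add]
    · rw [if_neg (by omega), if_neg (by omega), if_neg (fun e => h.ne (congrArg Fin.val e)),
        add_zero]
  simp only [tailT, Fin.val_castSucc, Fin.val_succ, h, sum_add_distrib, sum_ite_eq', mem_univ,
    if_true]
  ring

lemma denom_add (q v : Fin (r + 1) → ℝ) (p : Fin (r + 1)) :
    denom θ m (q + v) p = denom θ m q p - θ * tailT m v p := by
  have h : ∀ i : Fin r, (if p.val ≤ i.val then m i * gap (q + v) i else 0) =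
      (if p.val ≤ i.val then m i * gap q i else 0) +
        if p.val ≤ i.val then m i * gap v i else 0 := fun i => by
    split_ifs
    · simp [gap]; ring
    · simp
  simp only [denom, tailT, h, sum_add_distrib, Pi.add_apply]
  ring

lemma denom_add_smul (q v : Fin (r + 1) → ℝ) (t : ℝ) (p : Fin (r + 1)) :
    denom θ m (q + t • v) p = denom θ m q p - t * (θ * tailT m v p) := by
  rw [denom_add]
  have h : tailT m (t • v) p = t * tailT m v p := by
    simp only [tailT, gap, Pi.smul_apply, smul_eq_mul, mul_sub, Finset.mul_sum, mul_ite, mul_zero]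
    congr 1
    exact Finset.sum_congr rfl fun i _ => by split_ifs <;> ring
  rw [h]
  ring

/-- The pairing of a conjugate path with a direction, summed by parts. -/
lemma pair_by_parts (hm : Exps m) (s v : Fin (r + 1) → ℝ) :
    ∑ p, weight m p * (s p * v p) = s 0 * tailT m v 0 +
      ∑ i : Fin r, gap s i * (tailT m v i.succ - m i * v i.succ) := by
  have h1 := telescope fun p => s p * tailT m v p
  simp only [tailT_last] at h1
  have e : ∀ i : Fin r, gap (fun p => s p * tailT m v p) i - m i * gap (fun p => s p * v p) i =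
      gap s i * (tailT m v i.succ - m i * v i.succ) := fun i => by
    simp only [gap, tailT_castSucc]; ring
  rw [sum_weight_mul hm, ← Finset.sum_congr rfl fun i _ => e i, Finset.sum_sub_distrib, h1]
  ring

variable {q q' : Fin (r + 1) → ℝ}

/-- The conjugate path is monotone in the path. -/
theorem slope_monotone (hθ : 0 < θ) (hm : Exps m) (hq : Monotone q) (hq0 : 0 ≤ q 0)
    (hq1 : q (Fin.last r) ≤ 1) (hq' : Monotone q') (hq'0 : 0 ≤ q' 0)
    (hq'1 : q' (Fin.last r) ≤ 1) :
    0 ≤ ∑ p, weight m p * ((quadSlope θ m q' p - quadSlope θ m q p) * (q' p - q p)) := by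
  have hm0 := fun i => (hm.pos i).le
  set A := fun p => denom θ m q p
  set B := fun p => denom θ m q' p
  have hA : ∀ p, 0 < A p := denom_pos hθ.le hm0 hq hq1
  have hB : ∀ p, 0 < B p := denom_pos hθ.le hm0 hq' hq'1
  set v : Fin (r + 1) → ℝ := fun p => q' p - q p
  set T := fun p => tailT m v p
  have hAB : ∀ p, B p = A p - θ * T p := fun p => by
    have : q' = q + v := by funext p; simp [v]
    simp only [A, B, T]
    rw [this, denom_add]
  have hg : ∀ i : Fin r, gap (fun p => quadSlope θ m q' p - quadSlope θ m q p) i =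
      θ ^ 2 * (gap q' i / (B i.castSucc * B i.succ) - gap q i / (A i.castSucc * A i.succ)) := by
    intro i
    have e : ∀ (F : Fin r → ℝ), (∑ j : Fin r, if j.val < i.val + 1 then F j else 0) =
        (∑ j : Fin r, if j.val < i.val then F j else 0) + F i := fun F => by
      rw [← Fintype.sum_ite_eq' i F, ← Finset.sum_add_distrib]
      refine Finset.sum_congr rfl fun j _ => ?_
      rcases lt_trichotomy j.val i.val with h | h | h
      · rw [if_pos (by omega), if_pos h, if_neg (fun e => h.ne (congrArg Fin.val e)), add_zero]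
      · obtain rfl : j = i := Fin.ext h
        simp
      · rw [if_neg (by omega), if_neg (by omega), if_neg (fun e => h.ne (congrArg Fin.val e).symm),
          add_zero]
    show (quadSlope θ m q' i.succ - quadSlope θ m q i.succ) -
      (quadSlope θ m q' i.castSucc - quadSlope θ m q i.castSucc) = _
    simp only [quadSlope, Fin.val_succ, Fin.val_castSucc, e, A, B]
    ring
  have hs0 : quadSlope θ m q' 0 - quadSlope θ m q 0 =
      θ ^ 2 * (q' 0 / B 0 ^ 2 - q 0 / A 0 ^ 2) := by
    simp [quadSlope, A, B]; ring
  rw [pair_by_parts hm, hs0]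
  simp only [hg]
  set H := fun p => v p * T p / (A p * B p)
  set Q2 := fun p => v p ^ 2 / (A p * B p)
  have hstep : ∀ i : Fin r, θ ^ 2 * gap H i - θ ^ 2 * (m i * gap Q2 i) ≤
      θ ^ 2 * (gap q' i / (B i.castSucc * B i.succ) - gap q i / (A i.castSucc * A i.succ)) *
        (T i.succ - m i * v i.succ) := by
    intro i
    have a1 := hA i.castSucc
    have a2 := hA i.succ
    have b1 := hB i.castSucc
    have b2 := hB i.succ
    set V := T i.succ - m i * v i.succ
    have hTc : T i.castSucc = V + m i * v i.castSucc := by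
      simp only [T, V, tailT_castSucc, gap]; ring
    have hTs : T i.succ = V + m i * v i.succ := by simp only [V]; ring
    have eA : A i.castSucc = A i.succ + θ * (m i * gap q i) := denom_castSucc i
    have eB : B i.castSucc = B i.succ + θ * (m i * gap q' i) := denom_castSucc i
    have eq : gap q' i = gap q i + (v i.succ - v i.castSucc) := by simp only [gap, v]; ring
    have eBs := hAB i.succ
    have eBc := hAB i.castSucc
    have key : (gap q' i / (B i.castSucc * B i.succ) - gap q i / (A i.castSucc * A i.succ)) * V -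
        (gap H i - m i * gap Q2 i) =
        V ^ 2 / m i * (1 / (A i.succ * B i.succ) - 1 / (A i.castSucc * B i.castSucc)) := by
      have hmi := (hm.pos i).ne'
      have g1 : gap q i = (A i.castSucc - A i.succ) / (θ * m i) := by
        rw [eA]; field_simp; ring
      have g2 : gap q' i = (B i.castSucc - B i.succ) / (θ * m i) := by
        rw [eB]; field_simp; ring
      have v1 : v i.castSucc = ((A i.castSucc - B i.castSucc) / θ - V) / m i := by
        rw [eBc, hTc]; field_simp; ring
      have v2 : v i.succ = ((A i.succ - B i.succ) / θ - V) / m i := by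
        rw [eBs, hTs]; field_simp; ring
      simp only [H, Q2, gap] at *
      rw [hTc, hTs, g1, g2, v1, v2]
      field_simp
      ring
    have hpos : 0 ≤ V ^ 2 / m i *
        (1 / (A i.succ * B i.succ) - 1 / (A i.castSucc * B i.castSucc)) := by
      refine mul_nonneg (div_nonneg (sq_nonneg _) (hm0 i)) (sub_nonneg.2 ?_)
      exact one_div_le_one_div_of_le (mul_pos a2 b2) (mul_le_mul (denom_mono hθ.le hm0 hq i)
        (denom_mono hθ.le hm0 hq' i) b2.le a1.le)
    nlinarith [mul_nonneg (sq_nonneg θ) hpos]
  have hsum := Finset.sum_le_sum fun i (_ : i ∈ (univ : Finset (Fin r))) => hstep i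
  have hw : 0 ≤ ∑ p, weight m p * Q2 p := Finset.sum_nonneg fun p _ =>
    mul_nonneg (weight_nonneg hm p) (div_nonneg (sq_nonneg _) (mul_pos (hA p) (hB p)).le)
  rw [sum_weight_mul hm] at hw
  rw [Finset.sum_sub_distrib, ← Finset.mul_sum, ← Finset.mul_sum, telescope H] at hsum
  have hlast : H (Fin.last r) = Q2 (Fin.last r) := by
    simp only [H, Q2, T, tailT_last]; ring
  have hroot : H 0 ≤ (q' 0 / B 0 ^ 2 - q 0 / A 0 ^ 2) * T 0 := by
    have a := hA 0
    have b := hB 0
    have e := hAB 0
    have : (q' 0 / B 0 ^ 2 - q 0 / A 0 ^ 2) * T 0 - H 0 =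
        θ * T 0 ^ 2 * (q' 0 / (A 0 * B 0 ^ 2) + q 0 / (A 0 ^ 2 * B 0)) := by
      have hT : T 0 = (A 0 - B 0) / θ := by rw [e]; field_simp; ring
      simp only [H, v]
      rw [hT]
      field_simp
      ring
    have hp : 0 ≤ θ * T 0 ^ 2 * (q' 0 / (A 0 * B 0 ^ 2) + q 0 / (A 0 ^ 2 * B 0)) := by positivity
    linarith
  nlinarith [mul_le_mul_of_nonneg_left hroot (sq_nonneg θ), mul_nonneg (sq_nonneg θ) hw]

/-- Concavity in tangent form. -/
theorem quadValue_le (hθ : 0 < θ) (hm : Exps m) (hq : Monotone q) (hq0 : 0 ≤ q 0)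
    (hq1 : q (Fin.last r) ≤ 1) (hq' : Monotone q') (hq'0 : 0 ≤ q' 0)
    (hq'1 : q' (Fin.last r) ≤ 1) :
    quadValue θ m q' + 1 / 2 * ∑ p, weight m p * (quadSlope θ m q p * (q' p - q p)) ≤
      quadValue θ m q := by
  have hm0 := fun i => (hm.pos i).le
  set v : Fin (r + 1) → ℝ := fun p => q' p - q p
  set S := ∑ p, weight m p * (quadSlope θ m q p * v p)
  let P : ℝ → Fin (r + 1) → ℝ := fun t => q + t • v
  set F : ℝ → ℝ := fun t => quadValue θ m (P t) + t * (1 / 2 * S)
  have hP : ∀ t ∈ Set.Icc (0 : ℝ) 1,
      Monotone (P t) ∧ 0 ≤ P t 0 ∧ P t (Fin.last r) ≤ 1 := by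
    intro t ht
    have e : ∀ p, P t p = (1 - t) * q p + t * q' p := fun p => by
      simp [P, v]; ring
    refine ⟨fun i j h => ?_, ?_, ?_⟩
    · rw [e, e]
      exact add_le_add (mul_le_mul_of_nonneg_left (hq h) (by linarith [ht.2]))
        (mul_le_mul_of_nonneg_left (hq' h) ht.1)
    · rw [e]; have := ht.1; have := ht.2; nlinarith
    · rw [e]; have := ht.1; have := ht.2; nlinarith
  have hder : ∀ t ∈ Set.Icc (0 : ℝ) 1, HasDerivAt F
      (-(1 / 2) * (∑ p, weight m p * (quadSlope θ m (P t) p * v p)) + 1 / 2 * S) t := by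
    intro t ht
    obtain ⟨hmo, hP0, hP1⟩ := hP t ht
    have hA : ∀ p, 0 < denom θ m (P t) p := denom_pos hθ.le hm0 hmo hP1
    have hd : ∀ p, HasDerivAt (fun t => denom θ m (P t) p) (-(θ * tailT m v p)) t := fun p => by
      simp only [P, denom_add_smul]
      simpa using ((hasDerivAt_id t).mul_const (θ * tailT m v p)).const_sub (denom θ m q p)
    have hl : ∀ p, HasDerivAt (fun t => Real.log (denom θ m (P t) p))
        (-(θ * tailT m v p) / denom θ m (P t) p) t := fun p => (hd p).log (hA p).ne'
    have hq00 : HasDerivAt (fun t => θ * P t 0) (θ * v 0) t := by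
      simpa [P] using ((((hasDerivAt_id t).mul_const (v 0)).const_add (q 0)).const_mul θ)
    have hfun : (fun t => quadValue θ m (P t)) = fun t =>
        -(1 / 2) * (Real.log (denom θ m (P t) (Fin.last r)) + ∑ i : Fin r,
          (Real.log (denom θ m (P t) i.castSucc) - Real.log (denom θ m (P t) i.succ)) / m i) -
        θ * P t 0 / (2 * denom θ m (P t) 0) := by
      funext t
      simp [quadValue, quadConst]
    have h1 := (((hl (Fin.last r)).add (HasDerivAt.fun_sum fun i (_ : i ∈ (univ : Finset (Fin r))) =>
      ((hl i.castSucc).sub (hl i.succ)).div_const (m i))).const_mul (-(1 / 2) : ℝ)).sub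
      (hq00.div ((hd 0).const_mul 2) (mul_ne_zero two_ne_zero (hA 0).ne'))
    have h2 : HasDerivAt (fun t => quadValue θ m (P t))
        (-(1 / 2) * ∑ p, weight m p * (quadSlope θ m (P t) p * v p)) t := by
      rw [hfun]
      refine h1.congr_deriv ?_
      rw [pair_by_parts hm]
      have hgs : ∀ i : Fin r, gap (quadSlope θ m (P t)) i =
          θ ^ 2 * (gap (P t) i / (denom θ m (P t) i.castSucc * denom θ m (P t) i.succ)) := by
        intro i
        simp only [gap, quadSlope, Fin.val_succ, Fin.val_castSucc]
        rw [← mul_sub]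
        congr 1
        rw [add_sub_add_left_eq_sub, ← Finset.sum_sub_distrib, ← Fintype.sum_ite_eq' i fun j =>
          ((P t) j.succ - (P t) j.castSucc) /
            (denom θ m (P t) j.castSucc * denom θ m (P t) j.succ)]
        refine Finset.sum_congr rfl fun j _ => ?_
        rcases lt_trichotomy j.val i.val with h | h | h
        · rw [if_pos (by omega), if_pos h, if_neg (fun e => h.ne (congrArg Fin.val e)), sub_self]
        · obtain rfl : j = i := Fin.ext h
          simp
        · rw [if_neg (by omega), if_neg (by omega),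
            if_neg (fun e => h.ne (congrArg Fin.val e).symm), sub_self]
      have hterm : ∀ i : Fin r,
          (-(θ * tailT m v i.castSucc) / denom θ m (P t) i.castSucc -
              -(θ * tailT m v i.succ) / denom θ m (P t) i.succ) / m i =
            θ * gap (fun p => v p / denom θ m (P t) p) i +
              gap (quadSlope θ m (P t)) i * (tailT m v i.succ - m i * v i.succ) := by
        intro i
        have a1 := hA i.castSucc
        have a2 := hA i.succ
        have hmi := (hm.pos i).ne'
        have eA : gap (P t) i =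
            (denom θ m (P t) i.castSucc - denom θ m (P t) i.succ) / (θ * m i) := by
          rw [denom_castSucc]; field_simp; ring
        rw [hgs, eA, tailT_castSucc]
        simp only [gap]
        field_simp
        ring
      have hs0 : quadSlope θ m (P t) 0 = θ ^ 2 * (P t 0 / denom θ m (P t) 0 ^ 2) := by
        simp [quadSlope]
      have a0 := hA 0
      have ar := hA (Fin.last r)
      simp only [hterm, Finset.sum_add_distrib, ← Finset.mul_sum, telescope, tailT_last, hs0]
      field_simp
      ring
    exact (h2.add ((hasDerivAt_id t).mul_const (1 / 2 * S))).congr_deriv (by simp)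
  have hanti : AntitoneOn F (Set.Icc (0 : ℝ) 1) := by
    refine antitoneOn_of_hasDerivWithinAt_nonpos (convex_Icc _ _)
      (fun t ht => (hder t ht).continuousAt.continuousWithinAt)
      (fun t ht => (hder t (interior_subset ht)).hasDerivWithinAt) fun t ht => ?_
    rw [interior_Icc] at ht
    obtain ⟨hmo, hP0, hP1⟩ := hP t (Set.Ioo_subset_Icc_self ht)
    have := slope_monotone hθ hm hq hq0 hq1 hmo hP0 hP1
    have e : ∑ p, weight m p * ((quadSlope θ m (P t) p - quadSlope θ m q p) * (P t p - q p)) =
        t * ((∑ p, weight m p * (quadSlope θ m (P t) p * v p)) - S) := by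
      simp only [S, ← Finset.sum_sub_distrib, Finset.mul_sum]
      exact Finset.sum_congr rfl fun p _ => by simp [P]; ring
    rw [e] at this
    have := nonneg_of_mul_nonneg_right this ht.1
    linarith
  have h := hanti (Set.left_mem_Icc.2 zero_le_one) (Set.right_mem_Icc.2 zero_le_one) zero_le_one
  have e1 : P 1 = q' := by funext p; simp [P, v]
  simp only [F, e1, one_mul, zero_mul, add_zero] at h
  simpa [P] using h

end Vale.Agent.P166.NW
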